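import Vale.Agent.P165.Sharp

/-!
A block criterion for percolation in the plane without planar duality: site events of high
probability with finite-range dependence join the origin to any distance with probability at
least one half.
-/

open Finset

namespace Vale.Agent.P151.Block

open Vale.Agent.P165

variable {α : Type*} [DecidableEq α]

/-- The child with offset `o` of the block with index `a`. -/
def child (a : ℕ × ℕ) (o : ℕ × ℕ) : ℕ × ℕ := (5 * a.1 + o.1, 5 * a.2 + o.2)

/-- The offsets of the children. -/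
def offs : Finset (ℕ × ℕ) := range 5 ×ˢ range 5

/-- The indices below five with the property `P`. -/
noncomputable def badIdx (P : ℕ → Prop) : Finset ℕ :=
  open scoped Classical in (range 5).filter P

lemma mem_badIdx {P : ℕ → Prop} {r : ℕ} : r ∈ badIdx P ↔ r < 5 ∧ P r := by
  simp [badIdx]

/-- Goodness of a block at a scale: at most two rows and at most two columns of children contain a
bad child. -/
def Good (G : ℕ × ℕ → Finset α → Prop) : ℕ → ℕ × ℕ → Finset α → Prop
  | 0, a, S => G a S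
  | j + 1, a, S =>
    (badIdx fun r => ∃ c < 5, ¬ Good G j (child a (c, r)) S).card ≤ 2 ∧
    (badIdx fun c => ∃ r < 5, ¬ Good G j (child a (c, r)) S).card ≤ 2

/-- The coordinates that a block reads. -/
def supp (E : ℕ × ℕ → Finset α) : ℕ → ℕ × ℕ → Finset α
  | 0, a => E a
  | j + 1, a => offs.biUnion fun o => supp E j (child a o)

/-- A row of children all of which are good. -/
def FreeRow (G : ℕ × ℕ → Finset α → Prop) (j : ℕ) (a : ℕ × ℕ) (S : Finset α) (r : ℕ) : Prop :=
  r < 5 ∧ ∀ c < 5, Good G j (child a (c, r)) S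

/-- A column of children all of which are good. -/
def FreeCol (G : ℕ × ℕ → Finset α → Prop) (j : ℕ) (a : ℕ × ℕ) (S : Finset α) (c : ℕ) : Prop :=
  c < 5 ∧ ∀ r < 5, Good G j (child a (c, r)) S

/-- The connected core of a good block. -/
def core (G : ℕ × ℕ → Finset α → Prop) : ℕ → ℕ × ℕ → Finset α → Set (ℕ × ℕ)
  | 0, a, _ => {a}
  | j + 1, a, S => {x | ∃ c r, c < 5 ∧ r < 5 ∧ (FreeRow G j a S r ∨ FreeCol G j a S c) ∧
      x ∈ core G j (child a (c, r)) S}

/-- Neighbours in the plane. -/
def NN (x y : ℕ × ℕ) : Prop :=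
  (x.2 = y.2 ∧ (x.1 = y.1 + 1 ∨ y.1 = x.1 + 1)) ∨ (x.1 = y.1 ∧ (x.2 = y.2 + 1 ∨ y.2 = x.2 + 1))

/-- Connection through good sites. -/
def Conn (G : ℕ × ℕ → Finset α → Prop) (S : Finset α) : ℕ × ℕ → ℕ × ℕ → Prop :=
  Relation.ReflTransGen fun x y => G x S ∧ G y S ∧ NN x y

variable {G : ℕ × ℕ → Finset α → Prop}

omit [DecidableEq α] in
lemma Conn.symm {S : Finset α} {x y : ℕ × ℕ} (h : Conn G S x y) : Conn G S y x :=
  by
  induction h with
  | refl => exact Relation.ReflTransGen.refl
  | tail _ hbc ih =>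
    exact Relation.ReflTransGen.head
      ⟨hbc.2.1, hbc.1, hbc.2.2.imp (fun h => ⟨h.1.symm, h.2.symm⟩) fun h => ⟨h.1.symm, h.2.symm⟩⟩ ih

omit [DecidableEq α] in
lemma exists_free {P : ℕ → Prop} {P' : ℕ → Prop}
    (h : (badIdx P).card ≤ 2) (h' : (badIdx P').card ≤ 2) :
    ∃ r < 5, ¬ P r ∧ ¬ P' r := by
  by_contra hno
  push Not at hno
  have : range 5 ⊆ badIdx P ∪ badIdx P' := fun r hr => by
    rw [mem_union, mem_badIdx, mem_badIdx]
    by_cases hP : P r
    · exact Or.inl ⟨mem_range.1 hr, hP⟩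
    · exact Or.inr ⟨mem_range.1 hr, hno r (mem_range.1 hr) hP⟩
  have := (card_le_card this).trans (card_union_le _ _)
  simp at this
  omega

omit [DecidableEq α] in
lemma common_freeRow {j : ℕ} {a b : ℕ × ℕ} {S : Finset α} (ha : Good G (j + 1) a S)
    (hb : Good G (j + 1) b S) : ∃ r, FreeRow G j a S r ∧ FreeRow G j b S r := by
  classical
  obtain ⟨r, hr, h1, h2⟩ := exists_free ha.1 hb.1
  push Not at h1 h2
  exact ⟨r, ⟨hr, h1⟩, hr, h2⟩

omit [DecidableEq α] in
lemma common_freeCol {j : ℕ} {a b : ℕ × ℕ} {S : Finset α} (ha : Good G (j + 1) a S)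
    (hb : Good G (j + 1) b S) : ∃ c, FreeCol G j a S c ∧ FreeCol G j b S c := by
  classical
  obtain ⟨c, hc, h1, h2⟩ := exists_free ha.2 hb.2
  push Not at h1 h2
  exact ⟨c, ⟨hc, h1⟩, hc, h2⟩

omit [DecidableEq α] in
lemma core_spec (S : Finset α) : ∀ j a, Good G j a S →
    ((core G j a S).Nonempty ∧ (∀ x ∈ core G j a S, G x S) ∧
      (∀ x ∈ core G j a S, ∀ y ∈ core G j a S, Conn G S x y) ∧
      ∀ b, Good G j b S → NN a b → ∀ x ∈ core G j a S, ∀ y ∈ core G j b S, Conn G S x y) := by
  intro j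
  induction j with
  | zero =>
    intro a ha
    refine ⟨Set.singleton_nonempty a, fun x hx => hx ▸ ha, fun x hx y hy => ?_,
      fun b hb hab x hx y hy => ?_⟩
    · rw [Set.mem_singleton_iff.1 hx, Set.mem_singleton_iff.1 hy]
      exact Relation.ReflTransGen.refl
    · rw [Set.mem_singleton_iff.1 hx, Set.mem_singleton_iff.1 hy]
      exact Relation.ReflTransGen.single ⟨ha, hb, hab⟩
  | succ j ih =>
    have step : ∀ a b, Good G j a S → Good G j b S → NN a b →
        ∀ x ∈ core G j a S, ∀ y ∈ core G j b S, Conn G S x y := fun a b ha hb hab =>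
      (ih a ha).2.2.2 b hb hab
    have row : ∀ a r, FreeRow G j a S r → ∀ c < 5, ∀ x ∈ core G j (child a (c, r)) S,
        ∀ y ∈ core G j (child a (0, r)) S, Conn G S x y := by
      intro a r hr c
      induction c with
      | zero => exact fun _ x hx y hy => (ih _ (hr.2 0 (by omega))).2.2.1 x hx y hy
      | succ c ihc =>
        intro hc x hx y hy
        obtain ⟨z, hz⟩ := (ih _ (hr.2 c (by omega))).1
        refine (step _ _ (hr.2 (c + 1) hc) (hr.2 c (by omega))
          (Or.inl ⟨rfl, Or.inl (by simp [child]; omega)⟩) x hx z hz).trans ?_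
        exact ihc (by omega) z hz y hy
    have col : ∀ a c, FreeCol G j a S c → ∀ r < 5, ∀ x ∈ core G j (child a (c, r)) S,
        ∀ y ∈ core G j (child a (c, 0)) S, Conn G S x y := by
      intro a c hc r
      induction r with
      | zero => exact fun _ x hx y hy => (ih _ (hc.2 0 (by omega))).2.2.1 x hx y hy
      | succ r ihr =>
        intro hr x hx y hy
        obtain ⟨z, hz⟩ := (ih _ (hc.2 r (by omega))).1
        refine (step _ _ (hc.2 (r + 1) hr) (hc.2 r (by omega))
          (Or.inr ⟨rfl, Or.inl (by simp [child]; omega)⟩) x hx z hz).trans ?_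
        exact ihr (by omega) z hz y hy
    have rowc : ∀ a r, FreeRow G j a S r → ∀ c < 5, ∀ c' < 5,
        ∀ x ∈ core G j (child a (c, r)) S, ∀ y ∈ core G j (child a (c', r)) S, Conn G S x y := by
      intro a r hr c hc c' hc' x hx y hy
      obtain ⟨z, hz⟩ := (ih _ (hr.2 0 (by omega))).1
      exact (row a r hr c hc x hx z hz).trans (row a r hr c' hc' y hy z hz).symm
    have colc : ∀ a c, FreeCol G j a S c → ∀ r < 5, ∀ r' < 5,
        ∀ x ∈ core G j (child a (c, r)) S, ∀ y ∈ core G j (child a (c, r')) S, Conn G S x y := by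
      intro a c hc r hr r' hr' x hx y hy
      obtain ⟨z, hz⟩ := (ih _ (hc.2 0 (by omega))).1
      exact (col a c hc r hr x hx z hz).trans (col a c hc r' hr' y hy z hz).symm
    have inside : ∀ a, Good G (j + 1) a S →
        ∀ x ∈ core G (j + 1) a S, ∀ y ∈ core G (j + 1) a S, Conn G S x y := by
      intro a ha
      obtain ⟨r₀, hr₀, -⟩ := common_freeRow ha ha
      obtain ⟨c₀, hc₀, -⟩ := common_freeCol ha ha
      obtain ⟨h, hh⟩ := (ih _ (hr₀.2 c₀ hc₀.1)).1
      have hub : ∀ x ∈ core G (j + 1) a S, Conn G S x h := by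
        rintro x ⟨c, r, hc, hr, hfree | hfree, hx⟩
        · obtain ⟨z, hz⟩ := (ih _ (hfree.2 c₀ hc₀.1)).1
          exact (rowc a r hfree c hc c₀ hc₀.1 x hx z hz).trans
            (colc a c₀ hc₀ r hr r₀ hr₀.1 z hz h hh)
        · obtain ⟨z, hz⟩ := (ih _ (hfree.2 r₀ hr₀.1)).1
          exact (colc a c hfree r hr r₀ hr₀.1 x hx z hz).trans
            (rowc a r₀ hr₀ c hc c₀ hc₀.1 z hz h hh)
      exact fun x hx y hy => (hub x hx).trans (hub y hy).symm
    intro a ha
    obtain ⟨r₀, hr₀, -⟩ := common_freeRow ha ha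
    refine ⟨?_, ?_, inside a ha, ?_⟩
    · obtain ⟨z, hz⟩ := (ih _ (hr₀.2 0 (by omega))).1
      exact ⟨z, 0, r₀, by omega, hr₀.1, Or.inl hr₀, hz⟩
    · rintro x ⟨c, r, hc, hr, hfree | hfree, hx⟩
      · exact (ih _ (hfree.2 c hc)).2.1 x hx
      · exact (ih _ (hfree.2 r hr)).2.1 x hx
    · intro b hb hab x hx y hy
      suffices ∃ u ∈ core G (j + 1) a S, ∃ v ∈ core G (j + 1) b S, Conn G S u v by
        obtain ⟨u, hu, v, hv, huv⟩ := this
        exact ((inside a ha x hx u hu).trans huv).trans (inside b hb v hv y hy)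
      obtain ⟨a₁, a₂⟩ := a
      obtain ⟨b₁, b₂⟩ := b
      rcases hab with ⟨e, h | h⟩ | ⟨e, h | h⟩ <;> simp only at e h <;> subst e <;> subst h
      · obtain ⟨r, hra, hrb⟩ := common_freeRow ha hb
        obtain ⟨u, hu⟩ := (ih _ (hra.2 0 (by omega))).1
        obtain ⟨v, hv⟩ := (ih _ (hrb.2 4 (by omega))).1
        exact ⟨u, ⟨0, r, by omega, hra.1, Or.inl hra, hu⟩, v, ⟨4, r, by omega, hrb.1, Or.inl hrb, hv⟩,
          step _ _ (hra.2 0 (by omega)) (hrb.2 4 (by omega))
            (Or.inl ⟨rfl, Or.inl (by simp [child]; omega)⟩) u hu v hv⟩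
      · obtain ⟨r, hra, hrb⟩ := common_freeRow ha hb
        obtain ⟨u, hu⟩ := (ih _ (hra.2 4 (by omega))).1
        obtain ⟨v, hv⟩ := (ih _ (hrb.2 0 (by omega))).1
        exact ⟨u, ⟨4, r, by omega, hra.1, Or.inl hra, hu⟩, v, ⟨0, r, by omega, hrb.1, Or.inl hrb, hv⟩,
          step _ _ (hra.2 4 (by omega)) (hrb.2 0 (by omega))
            (Or.inl ⟨rfl, Or.inr (by simp [child]; omega)⟩) u hu v hv⟩
      · obtain ⟨c, hca, hcb⟩ := common_freeCol ha hb
        obtain ⟨u, hu⟩ := (ih _ (hca.2 0 (by omega))).1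
        obtain ⟨v, hv⟩ := (ih _ (hcb.2 4 (by omega))).1
        exact ⟨u, ⟨c, 0, hca.1, by omega, Or.inr hca, hu⟩, v, ⟨c, 4, hcb.1, by omega, Or.inr hcb, hv⟩,
          step _ _ (hca.2 0 (by omega)) (hcb.2 4 (by omega))
            (Or.inr ⟨rfl, Or.inl (by simp [child]; omega)⟩) u hu v hv⟩
      · obtain ⟨c, hca, hcb⟩ := common_freeCol ha hb
        obtain ⟨u, hu⟩ := (ih _ (hca.2 4 (by omega))).1
        obtain ⟨v, hv⟩ := (ih _ (hcb.2 0 (by omega))).1
        exact ⟨u, ⟨c, 4, hca.1, by omega, Or.inr hca, hu⟩, v, ⟨c, 0, hcb.1, by omega, Or.inr hcb, hv⟩,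
          step _ _ (hca.2 4 (by omega)) (hcb.2 0 (by omega))
            (Or.inr ⟨rfl, Or.inr (by simp [child]; omega)⟩) u hu v hv⟩

/-- Indices at distance at least two. -/
def Far (a b : ℕ × ℕ) : Prop :=
  a.1 + 2 ≤ b.1 ∨ b.1 + 2 ≤ a.1 ∨ a.2 + 2 ≤ b.2 ∨ b.2 + 2 ≤ a.2

lemma supp_disjoint {E : ℕ × ℕ → Finset α} (hE : ∀ a b, Far a b → Disjoint (E a) (E b)) :
    ∀ j a b, Far a b → Disjoint (supp E j a) (supp E j b) := by
  intro j
  induction j with
  | zero => exact hE
  | succ j ih =>
    intro a b hab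
    simp only [supp, disjoint_biUnion_left, disjoint_biUnion_right]
    intro o ho o' ho'
    apply ih
    simp only [offs, mem_product, mem_range] at ho ho'
    simp only [Far, child] at hab ⊢
    omega

lemma child_subset {E : ℕ × ℕ → Finset α} (j : ℕ) (a : ℕ × ℕ) {c r : ℕ} (hc : c < 5) (hr : r < 5) :
    supp E j (child a (c, r)) ⊆ supp E (j + 1) a :=
  subset_biUnion_of_mem (fun o => supp E j (child a o)) (by simp [offs, hc, hr])

lemma good_local {E : ℕ × ℕ → Finset α} (hG : ∀ a S, G a S ↔ G a (S ∩ E a)) :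
    ∀ j a S T, supp E j a ⊆ T → (Good G j a S ↔ Good G j a (S ∩ T)) := by
  intro j
  induction j with
  | zero =>
    intro a S T hT
    change E a ⊆ T at hT
    change G a S ↔ G a (S ∩ T)
    rw [hG a S, hG a (S ∩ T), inter_assoc, inter_eq_right.2 hT]
  | succ j ih =>
    intro a S T hT
    have key : ∀ c < 5, ∀ r < 5, (Good G j (child a (c, r)) S ↔ Good G j (child a (c, r)) (S ∩ T)) :=
      fun c hc r hr => ih _ S T ((child_subset j a hc hr).trans hT)
    simp only [Good]
    refine and_congr (iff_of_eq ?_) (iff_of_eq ?_)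
    · congr 2
      ext r
      simp only [mem_badIdx]
      exact and_congr_right fun hr => exists_congr fun c => and_congr_right fun hc =>
        not_congr (key c hc r hr)
    · congr 2
      ext c
      simp only [mem_badIdx]
      exact and_congr_right fun hc => exists_congr fun r => and_congr_right fun hr =>
        not_congr (key c hc r hr)

lemma far_pair {R : Finset ℕ} (h : ¬ R.card ≤ 2) : ∃ x ∈ R, ∃ y ∈ R, x + 2 ≤ y := by
  have hne : R.Nonempty := card_pos.1 (by omega)
  refine ⟨R.min' hne, R.min'_mem hne, R.max' hne, R.max'_mem hne, ?_⟩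
  by_contra hlt
  have : R ⊆ Icc (R.min' hne) (R.min' hne + 1) := fun x hx => by
    rw [mem_Icc]
    exact ⟨R.min'_le x hx, by have := R.le_max' x hx; omega⟩
  have := card_le_card this
  simp at this
  omega

/-- Bad blocks become doubly exponentially rare. -/
lemma bad_le {p δ : ℝ} (h0 : 0 ≤ p) (h1 : p ≤ 1) (hδ0 : 0 ≤ δ) (hδ : δ ≤ 1 / 1250)
    {E : ℕ × ℕ → Finset α} (hG : ∀ a S, G a S ↔ G a (S ∩ E a))
    (hE : ∀ a b, Far a b → Disjoint (E a) (E b))
    (hbad : ∀ a, pr p (E a) (fun S => ¬ G a S) ≤ δ) :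
    ∀ j a, pr p (supp E j a) (fun S => ¬ Good G j a S) ≤ δ / 2 ^ j := by
  classical
  intro j
  induction j with
  | zero => intro a; simpa [supp, Good] using hbad a
  | succ j ih =>
    intro a
    set P := (offs ×ˢ offs).filter fun w => Far (child a w.1) (child a w.2)
    set U := supp E (j + 1) a
    have hcov : ∀ S, S ⊆ U → ¬ Good G (j + 1) a S → ∃ w ∈ P,
        ¬ Good G j (child a w.1) S ∧ ¬ Good G j (child a w.2) S := by
      intro S _ hS
      simp only [Good, not_and_or] at hS
      rcases hS with h | h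
      · obtain ⟨r, hr, r', hr', hlt⟩ := far_pair h
        obtain ⟨hr5, c, hc, hb⟩ := mem_badIdx.1 hr
        obtain ⟨hr5', c', hc', hb'⟩ := mem_badIdx.1 hr'
        refine ⟨((c, r), (c', r')), mem_filter.2 ⟨by simp [offs, hr5, hr5', hc, hc'], ?_⟩, hb, hb'⟩
        simp only [Far, child]; omega
      · obtain ⟨c, hc, c', hc', hlt⟩ := far_pair h
        obtain ⟨hc5, r, hr, hb⟩ := mem_badIdx.1 hc
        obtain ⟨hc5', r', hr', hb'⟩ := mem_badIdx.1 hc'
        refine ⟨((c, r), (c', r')), mem_filter.2 ⟨by simp [offs, hc5, hc5', hr, hr'], ?_⟩, hb, hb'⟩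
        simp only [Far, child]; omega
    refine (pr_le_sum h0 h1 P _ hcov).trans ?_
    have hterm : ∀ w ∈ P, pr p U (fun S =>
        ¬ Good G j (child a w.1) S ∧ ¬ Good G j (child a w.2) S) ≤ (δ / 2 ^ j) ^ 2 := by
      intro w hw
      obtain ⟨hw, hfar⟩ := mem_filter.1 hw
      obtain ⟨hw1, hw2⟩ := mem_product.1 hw
      simp only [offs, mem_product, mem_range] at hw1 hw2
      have hd := supp_disjoint hE j _ _ hfar
      set A := supp E j (child a w.1)
      set B := supp E j (child a w.2)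
      have hsub : A ∪ B ⊆ U :=
        union_subset (child_subset j a hw1.1 hw1.2) (child_subset j a hw2.1 hw2.2)
      have hsp := pr_split p hd (fun S => ¬ Good G j (child a w.1) S)
        (fun S => ¬ Good G j (child a w.2) S)
      rw [← pr_marginal p hsub] at hsp
      calc pr p U (fun S => ¬ Good G j (child a w.1) S ∧ ¬ Good G j (child a w.2) S)
          = pr p A (fun S => ¬ Good G j (child a w.1) S)
            * pr p B (fun S => ¬ Good G j (child a w.2) S) := by
            rw [← hsp]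
            refine pr_congr fun S _ => ?_
            rw [good_local hG j (child a w.1) S A subset_rfl,
              good_local hG j (child a w.2) S B subset_rfl, inter_assoc, inter_assoc,
              inter_eq_right.2 subset_union_left, inter_eq_right.2 subset_union_right]
        _ ≤ (δ / 2 ^ j) ^ 2 := by
            rw [sq]
            exact mul_le_mul (ih _) (ih _) (pr_nonneg h0 h1 _ _) (by positivity)
    refine (sum_le_sum hterm).trans ?_
    rw [sum_const, nsmul_eq_mul]
    have hP : (P.card : ℝ) ≤ 625 := by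
      have : P.card ≤ (offs ×ˢ offs).card := card_filter_le _ _
      simp [offs] at this
      exact_mod_cast this
    have h2 : (1 : ℝ) ≤ 2 ^ j := one_le_pow₀ one_le_two
    have hx : δ / 2 ^ j ≤ 1 / 1250 := (div_le_self hδ0 h2).trans hδ
    have hx0 : 0 ≤ δ / 2 ^ j := by positivity
    calc (P.card : ℝ) * (δ / 2 ^ j) ^ 2 ≤ 625 * (δ / 2 ^ j) ^ 2 :=
          mul_le_mul_of_nonneg_right hP (sq_nonneg _)
      _ ≤ δ / 2 ^ j / 2 := by nlinarith
      _ = _ := by rw [pow_succ, div_div]

/-- Every child of every block at the origin is good. -/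
def AllGood (G : ℕ × ℕ → Finset α → Prop) (j : ℕ) (S : Finset α) : Prop :=
  ∀ i < j, ∀ o ∈ offs, Good G i (child (0, 0) o) S

omit [DecidableEq α] in
lemma allGood_spec {j : ℕ} {S : Finset α} (h : AllGood G (j + 1) S) :
    Good G (j + 1) (0, 0) S ∧ (∀ r < 5, FreeRow G j (0, 0) S r) ∧
      (0, 0) ∈ core G (j + 1) (0, 0) S ∧ ∀ x ∈ core G j (child (0, 0) (4, 0)) S,
        x ∈ core G (j + 1) (0, 0) S := by
  classical
  have key : ∀ i ≤ j, Good G (i + 1) (0, 0) S ∧ ∀ r < 5, FreeRow G i (0, 0) S r := by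
    intro i hi
    have hall : ∀ c < 5, ∀ r < 5, Good G i (child (0, 0) (c, r)) S := fun c hc r hr =>
      h i (by omega) (c, r) (by simp [offs, hc, hr])
    refine ⟨⟨?_, ?_⟩, fun r hr => ⟨hr, fun c hc => hall c hc r hr⟩⟩ <;>
    · rw [Finset.card_eq_zero.2 (eq_empty_of_forall_notMem ?_)]
      · simp
      · intro r hr
        obtain ⟨hr5, c, hc, hb⟩ := mem_badIdx.1 hr
        first | exact hb (hall c hc r hr5) | exact hb (hall r hr5 c hc)
  have hcore : ∀ i ≤ j + 1, (0, 0) ∈ core G i (0, 0) S := by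
    intro i
    induction i with
    | zero => exact fun _ => rfl
    | succ i ihi =>
      intro hi
      exact ⟨0, 0, by omega, by omega, Or.inl ((key i (by omega)).2 0 (by omega)), by
        simpa [child] using ihi (by omega)⟩
  exact ⟨(key j le_rfl).1, (key j le_rfl).2, hcore _ le_rfl,
    fun x hx => ⟨4, 0, by omega, by omega, Or.inl ((key j le_rfl).2 0 (by omega)), hx⟩⟩

omit [DecidableEq α] in
lemma core_bound (S : Finset α) : ∀ j a, ∀ x ∈ core G j a S, 5 ^ j * a.1 ≤ x.1 := by
  intro j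
  induction j with
  | zero => intro a x hx; rw [Set.mem_singleton_iff.1 hx]; simp
  | succ j ih =>
    rintro a x ⟨c, r, hc, hr, -, hx⟩
    have := ih _ x hx
    simp only [child] at this
    rw [pow_succ, mul_assoc]
    exact le_trans (Nat.mul_le_mul_left _ (Nat.le_add_right _ _)) this

/-- Site events of high probability with dependence range one join the origin to every distance
with probability at least one half. -/
theorem conn_far {p δ : ℝ} (h0 : 0 ≤ p) (h1 : p ≤ 1) (hδ0 : 0 ≤ δ) (hδ : δ ≤ 1 / 1250)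
    {E : ℕ × ℕ → Finset α} (hG : ∀ a S, G a S ↔ G a (S ∩ E a))
    (hE : ∀ a b, Far a b → Disjoint (E a) (E b))
    (hbad : ∀ a, pr p (E a) (fun S => ¬ G a S) ≤ δ) (n : ℕ) :
    ∃ j, ∀ U : Finset α, supp E (j + 1) (0, 0) ⊆ U →
      1 / 2 ≤ pr p U (fun S => ∃ y : ℕ × ℕ, n ≤ y.1 ∧ Conn G S (0, 0) y) := by
  classical
  refine ⟨n, fun U hU => ?_⟩
  have hnest : ∀ i ≤ n, ∀ o ∈ offs, supp E i (child (0, 0) o) ⊆ U := by
    have aux : ∀ k ≤ n + 1, supp E k (0, 0) ⊆ supp E (n + 1) (0, 0) := by
      intro k hk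
      induction hk using Nat.decreasingInduction with
      | self => exact subset_rfl
      | of_succ k hk ih =>
        refine Subset.trans ?_ ih
        simpa [child] using child_subset (E := E) k (0, 0) (c := 0) (r := 0) (by omega) (by omega)
    intro i hi o ho
    exact ((subset_biUnion_of_mem (fun o => supp E i (child (0, 0) o)) ho).trans
      (aux (i + 1) (by omega))).trans hU
  have hfail : pr p U (fun S => ¬ AllGood G (n + 1) S) ≤ 1 / 2 := by
    refine (pr_le_sum h0 h1 (range (n + 1) ×ˢ offs)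
      (fun w S => ¬ Good G w.1 (child (0, 0) w.2) S) ?_).trans ?_
    · intro S _ hS
      simp only [AllGood] at hS
      push Not at hS
      obtain ⟨i, hi, o, ho, hb⟩ := hS
      exact ⟨(i, o), mem_product.2 ⟨mem_range.2 hi, ho⟩, hb⟩
    rw [sum_product]
    calc ∑ i ∈ range (n + 1), ∑ o ∈ offs, pr p U (fun S => ¬ Good G i (child (0, 0) o) S)
        ≤ ∑ i ∈ range (n + 1), 25 * (δ * (1 / 2) ^ i) := by
          refine sum_le_sum fun i hi => ?_
          have h25 : (offs.card : ℝ) = 25 := by norm_num [offs]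
          rw [← h25, ← nsmul_eq_mul]
          refine sum_le_card_nsmul _ _ _ fun o ho => ?_
          have hsub := hnest i (Nat.lt_succ_iff.1 (mem_range.1 hi)) o ho
          refine le_trans (le_of_eq ?_) ((bad_le h0 h1 hδ0 hδ hG hE hbad i (child (0, 0) o)).trans
            (le_of_eq (by rw [one_div_pow, mul_one_div])))
          rw [← pr_marginal p hsub]
          exact pr_congr fun S _ => not_congr (good_local hG i _ S _ subset_rfl)
      _ = 25 * δ * ∑ i ∈ range (n + 1), (1 / 2 : ℝ) ^ i := by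
          rw [mul_sum]; exact sum_congr rfl fun i _ => by ring
      _ ≤ 25 * δ * 2 := mul_le_mul_of_nonneg_left (sum_geometric_two_le _) (by linarith)
      _ ≤ 1 / 2 := by linarith
  have hmono : pr p U (AllGood G (n + 1))
      ≤ pr p U (fun S => ∃ y : ℕ × ℕ, n ≤ y.1 ∧ Conn G S (0, 0) y) := by
    refine pr_mono h0 h1 fun S _ hS => ?_
    obtain ⟨hgood, -, h00, hsub⟩ := allGood_spec hS
    have hchild : Good G n (child (0, 0) (4, 0)) S := hS n (by omega) _ (by simp [offs])
    obtain ⟨y, hy⟩ := (core_spec S n _ hchild).1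
    refine ⟨y, ?_, (core_spec S _ _ hgood).2.2.1 _ h00 y (hsub y hy)⟩
    have := core_bound S n _ y hy
    simp only [child, Nat.mul_zero, Nat.zero_add] at this
    have := Nat.lt_pow_self (n := n) (show 1 < 5 by omega)
    omega
  have := pr_compl p U (AllGood G (n + 1))
  linarith

end Vale.Agent.P151.Block
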