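import Vale.Agent.P165.Link

/-!
The nearest-neighbour lattice `ℤ^d`: connectedness, symmetries and boxes.
-/

open Finset

namespace Vale.Agent.P151

open Vale.Agent.P165 (QuasiTransitive ball)

variable {d : ℕ}

/-- The nearest-neighbour graph on `ℤ^d`. -/
def zd (d : ℕ) : SimpleGraph (Fin d → ℤ) where
  Adj x y := ∃ i, (x i = y i + 1 ∨ y i = x i + 1) ∧ ∀ j, j ≠ i → x j = y j
  symm := ⟨fun _ _ ⟨i, h, e⟩ => ⟨i, h.symm, fun j hj => (e j hj).symm⟩⟩
  loopless := ⟨fun x ⟨i, h, _⟩ => by omega⟩

lemma zd_adj {x y : Fin d → ℤ} :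
    (zd d).Adj x y ↔ ∃ i, (x i = y i + 1 ∨ y i = x i + 1) ∧ ∀ j, j ≠ i → x j = y j := Iff.rfl

lemma zd_adj_update (x : Fin d → ℤ) (i : Fin d) :
    (zd d).Adj x (Function.update x i (x i + 1)) ∧ (zd d).Adj x (Function.update x i (x i - 1)) :=
  ⟨⟨i, Or.inr (by simp), fun j hj => by simp [hj]⟩,
    ⟨i, Or.inl (by simp), fun j hj => by simp [hj]⟩⟩

noncomputable instance : (zd d).LocallyFinite := fun x =>
  ((Set.finite_range fun q : Fin d × Bool =>
      Function.update x q.1 (if q.2 then x q.1 + 1 else x q.1 - 1)).subset (by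
    rintro y ⟨i, h, e⟩
    rcases h with h | h
    · refine ⟨(i, false), funext fun j => ?_⟩
      by_cases hj : j = i
      · subst hj; simp [h]
      · simp [hj, e j hj]
    · refine ⟨(i, true), funext fun j => ?_⟩
      by_cases hj : j = i
      · subst hj; simp [h]
      · simp [hj, e j hj])).fintype

/-- Translation by `v`. -/
def shift (v : Fin d → ℤ) : zd d ≃g zd d where
  toEquiv := Equiv.addRight v
  map_rel_iff' := by
    intro x y
    simp only [zd_adj, Equiv.coe_addRight, Pi.add_apply]
    exact exists_congr fun i => and_congr (by omega)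
      (forall_congr' fun j => imp_congr_right fun _ => by omega)

@[simp] lemma shift_apply (v x : Fin d → ℤ) : shift v x = x + v := rfl

/-- A signed permutation of the coordinates. -/
def signedPerm (σ : Equiv.Perm (Fin d)) (s : Fin d → ℤˣ) : zd d ≃g zd d where
  toFun x := fun i => (s i : ℤ) * x (σ i)
  invFun x := fun i => (s (σ.symm i) : ℤ) * x (σ.symm i)
  left_inv x := funext fun i => by
    simp [← mul_assoc, ← Units.val_mul]
  right_inv x := funext fun i => by
    simp [← mul_assoc, ← Units.val_mul]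
  map_rel_iff' := by
    intro x y
    simp only [zd_adj, Equiv.coe_fn_mk]
    refine Iff.trans (exists_congr fun i => and_congr ?_ ?_)
      (σ.exists_congr_right (q := fun i =>
        (x i = y i + 1 ∨ y i = x i + 1) ∧ ∀ j, j ≠ i → x j = y j))
    · rcases Int.units_eq_one_or (s i) with h | h <;> simp [h] <;> omega
    · rw [← σ.forall_congr_right (q := fun j => j ≠ σ i → x j = y j)]
      refine forall_congr' fun j => ?_
      simp [σ.injective.eq_iff]

@[simp] lemma signedPerm_apply (σ : Equiv.Perm (Fin d)) (s : Fin d → ℤˣ) (x : Fin d → ℤ)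
    (i : Fin d) : signedPerm σ s x i = (s i : ℤ) * x (σ i) := rfl

lemma zd_connected (d : ℕ) : (zd d).Connected := by
  classical
  refine ⟨fun x y => ?_⟩
  induction hn : ∑ i, (y i - x i).natAbs generalizing x with
  | zero =>
    have : x = y := funext fun i => by
      have := Finset.sum_eq_zero_iff.1 hn i (mem_univ i)
      omega
    exact this ▸ SimpleGraph.Reachable.refl x
  | succ n ih =>
    obtain ⟨i, -, hi⟩ := Finset.exists_ne_zero_of_sum_ne_zero (hn.trans_ne n.succ_ne_zero)
    have key : ∀ z, (zd d).Adj x z → (∀ j, j ≠ i → z j = x j) →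
        (y i - z i).natAbs + 1 = (y i - x i).natAbs → (zd d).Reachable x y := by
      intro z hxz hz hzi
      refine hxz.reachable.trans (ih z ?_)
      rw [← Finset.add_sum_erase _ _ (mem_univ i)] at hn ⊢
      rw [Finset.sum_congr rfl fun j hj => by rw [hz j (ne_of_mem_erase hj)]]
      omega
    rcases le_or_gt (x i) (y i) with h | h
    · exact key _ (zd_adj_update x i).1 (fun j hj => by simp [hj]) (by simp; omega)
    · exact key _ (zd_adj_update x i).2 (fun j hj => by simp [hj]) (by simp; omega)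

lemma zd_quasiTransitive (d : ℕ) : QuasiTransitive (zd d) :=
  ⟨{0}, Set.finite_singleton 0, fun v => ⟨shift (-v), by simp⟩⟩

instance [NeZero d] : Infinite (Fin d → ℤ) := inferInstance

/-- The box `[-n, n]^d`. -/
noncomputable def box (d n : ℕ) : Finset (Fin d → ℤ) :=
  Fintype.piFinset fun _ => Icc (-(n : ℤ)) n

lemma mem_box {n : ℕ} {x : Fin d → ℤ} : x ∈ box d n ↔ ∀ i, (x i).natAbs ≤ n := by
  simp only [box, Fintype.mem_piFinset, mem_Icc]
  exact forall_congr' fun i => by omega

lemma box_mono : Monotone (box d) := fun _ _ h _ hx =>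
  mem_box.2 fun i => (mem_box.1 hx i).trans h

lemma zero_mem_box (n : ℕ) : (0 : Fin d → ℤ) ∈ box d n := mem_box.2 fun i => by simp

lemma exists_mem_box (x : Fin d → ℤ) : ∃ n, x ∈ box d n :=
  ⟨univ.sup fun i => (x i).natAbs, mem_box.2 fun i => le_sup (f := fun i => (x i).natAbs) (mem_univ i)⟩

lemma box_step {n : ℕ} {x y : Fin d → ℤ} (hx : x ∈ box d n) (h : (zd d).Adj x y) :
    y ∈ box d (n + 1) := by
  obtain ⟨i, h, e⟩ := h
  refine mem_box.2 fun j => ?_
  have := mem_box.1 hx j
  by_cases hj : j = i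
  · subst hj; omega
  · rw [← e j hj]; omega

lemma card_box (d n : ℕ) : (box d n).card = (2 * n + 1) ^ d := by
  simp only [box, Fintype.card_piFinset, Int.card_Icc, prod_const, card_univ, Fintype.card_fin]
  congr 1
  omega

end Vale.Agent.P151
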