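import Vale.Agent.P151.Base.ZeroOne
import Vale.Agent.P151.Base.Lattice
import Vale.Agent.P165.SharpCor

/-!
Escape events on finite edge sets, the percolation probability as their limit, monotonicity and
continuity in the parameter, and the meaning of the threshold.
-/

open MeasureTheory ProbabilityTheory Finset Filter
open scoped unitInterval ENNReal Topology

namespace Vale.Agent.P151

open Vale.Agent.P165

variable {W : Type*} [DecidableEq W] {H : SimpleGraph W} [H.LocallyFinite]

/-- Some vertex of `X` is joined to the outside of `Λ`. -/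
def escape (H : SimpleGraph W) (X Λ : Finset W) : Set (Set (Sym2 W)) :=
  {ω | ∃ x ∈ X, ∃ y, y ∉ Λ ∧ (openGraph H ω).Reachable x y}

/-- The finite-configuration form of `escape`. -/
def Esc (X Λ : Finset W) (T : Finset (Sym2 W)) : Prop := ¬ cl (↑X : Set W) T ⊆ ↑Λ

omit [DecidableEq W] in
lemma esc_incr (X Λ : Finset W) {S T : Finset (Sym2 W)} (h : S ⊆ T) (hS : Esc X Λ S) :
    Esc X Λ T := fun h' => hS ((cl_mono subset_rfl h).trans h')

lemma edgesAt_subset (Λ : Finset W) : ↑(edgesAt H Λ) ⊆ H.edgeSet :=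
  fun _ he => boxEdges_edge (Finset.mem_coe.1 he)

lemma escape_eq_trace (X Λ : Finset W) :
    escape H X Λ = {ω | Esc X Λ (trace (edgesAt H Λ) ω)} := by
  ext ω
  simp only [escape, Esc, Set.mem_ofPred_eq]
  constructor
  · rintro ⟨x, hx, y, hy, ⟨q⟩⟩ hsub
    have hxc : x ∈ cl (↑X : Set W) (trace (edgesAt H Λ) ω) := subset_cl _ _ hx
    obtain ⟨dd, hd, hd1, hd2⟩ := q.exists_boundary_dart
      (cl (↑X : Set W) (trace (edgesAt H Λ) ω)) hxc (fun h => hy (hsub h))
    refine hd2 (cl_step hd1 (mem_trace.2 ⟨?_, dd.adj.2.1⟩))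
    exact mem_biUnion.2 ⟨dd.fst, hsub hd1, mem_image.2 ⟨dd.snd, by simpa using dd.adj.1, rfl⟩⟩
  · intro h
    obtain ⟨y, ⟨x, hx, hr⟩, hy⟩ := Set.not_subset.1 h
    refine ⟨x, hx, y, hy, ?_⟩
    exact cl_le_cluster x (edgesAt_subset Λ) ω ⟨x, rfl, hr⟩

lemma measurableSet_escape [Countable W] (X Λ : Finset W) : MeasurableSet (escape H X Λ) := by
  have : escape H X Λ = ⋃ x ∈ X, ⋃ y ∈ {y | y ∉ Λ}, {ω | (openGraph H ω).Reachable x y} := by
    ext ω
    simp [escape]
  rw [this]
  exact Finset.measurableSet_biUnion _ fun x _ =>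
    .biUnion (Set.to_countable _) fun y _ => measurableSet_reach x y

lemma escape_real (p : I) (X Λ : Finset W) :
    (bondMeasure H p).real (escape H X Λ) = pr (p : ℝ) (edgesAt H Λ) (Esc X Λ) := by
  rw [escape_eq_trace, bond_real_trace p (edgesAt_subset Λ)]

lemma continuous_pr {α : Type*} [DecidableEq α] (U : Finset α) (Q : Finset α → Prop) :
    Continuous fun t : ℝ => pr t U Q :=
  continuous_iff_continuousAt.2 fun t => (hasDerivAt_pr t U Q).continuousAt

omit [DecidableEq W] [H.LocallyFinite] in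
lemma infAt_union_eq (X : Finset W) (B : ℕ → Finset W) (hB : Monotone B)
    (hcov : ∀ x, ∃ n, x ∈ B n) : (⋃ x ∈ X, infAt H x) = ⋂ n, escape H X (B n) := by
  ext ω
  simp only [Set.mem_iUnion, Set.mem_iInter, escape, infAt, Set.mem_ofPred_eq, exists_prop]
  constructor
  · rintro ⟨x, hx, hinf⟩ n
    obtain ⟨y, hy, hyn⟩ := hinf.exists_notMem_finset (B n)
    exact ⟨x, hx, y, hyn, hy⟩
  · intro h
    by_contra hno
    push Not at hno
    have hfin : (⋃ x ∈ X, {y | (openGraph H ω).Reachable x y}).Finite :=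
      X.finite_toSet.biUnion fun x hx => hno x hx
    choose g hg using hcov
    obtain ⟨x, hx, y, hy, hr⟩ := h (hfin.toFinset.sup g)
    refine hy (hB (Finset.le_sup (f := g) (hfin.mem_toFinset.2 ?_)) (hg y))
    exact Set.mem_biUnion (s := (↑X : Set W)) hx hr

/-- The probability of meeting an infinite cluster is the limit of escape probabilities. -/
theorem tendsto_escape [Countable W] (p : I) (X : Finset W) (B : ℕ → Finset W) (hB : Monotone B)
    (hcov : ∀ x, ∃ n, x ∈ B n) :
    Tendsto (fun n => pr (p : ℝ) (edgesAt H (B n)) (Esc X (B n))) atTop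
      (𝓝 ((bondMeasure H p).real (⋃ x ∈ X, infAt H x))) := by
  haveI : IsProbabilityMeasure (bondMeasure H p) := by unfold bondMeasure; infer_instance
  rw [infAt_union_eq X B hB hcov]
  have := (ENNReal.tendsto_toReal (measure_ne_top _ _)).comp
    (tendsto_measure_iInter_atTop (μ := bondMeasure H p)
      (fun n => (measurableSet_escape X (B n)).nullMeasurableSet)
      (fun m n h ω (hω : ω ∈ escape H X (B n)) => by
        obtain ⟨x, hx, y, hy, hr⟩ := hω
        exact ⟨x, hx, y, fun hm => hy (hB h hm), hr⟩)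
      ⟨0, measure_ne_top _ _⟩)
  simpa [Function.comp_def, ← measureReal_def, escape_real] using this

lemma meet_infinite_le_escape [Countable W] (p : I) (X Λ : Finset W) :
    (bondMeasure H p).real (⋃ x ∈ X, infAt H x) ≤ pr (p : ℝ) (edgesAt H Λ) (Esc X Λ) := by
  haveI : IsProbabilityMeasure (bondMeasure H p) := by unfold bondMeasure; infer_instance
  rw [← escape_real]
  refine measureReal_mono fun ω hω => ?_
  simp only [Set.mem_iUnion, infAt, Set.mem_ofPred_eq, exists_prop] at hω
  obtain ⟨x, hx, hinf⟩ := hω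
  obtain ⟨y, hy, hyn⟩ := hinf.exists_notMem_finset Λ
  exact ⟨x, hx, y, hyn, hy⟩

/-- Percolation probabilities are monotone in the parameter. -/
theorem meet_infinite_mono [Countable W] {p q : I} (hpq : p ≤ q) (X : Finset W)
    (B : ℕ → Finset W) (hB : Monotone B) (hcov : ∀ x, ∃ n, x ∈ B n) :
    (bondMeasure H p).real (⋃ x ∈ X, infAt H x) ≤ (bondMeasure H q).real (⋃ x ∈ X, infAt H x) :=
  le_of_tendsto_of_tendsto' (tendsto_escape p X B hB hcov) (tendsto_escape q X B hB hcov) fun n =>
    pr_monotoneOn _ (fun _ _ => esc_incr X (B n)) p.2 q.2 hpq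

omit [DecidableEq W] [H.LocallyFinite] in
/-- A percolating parameter is at least the threshold. -/
theorem pc_le_of_infAt (p : I) (o : W) (h : 0 < bondMeasure H p (infAt H o)) : pc H ≤ p := by
  refine csInf_le ⟨0, by rintro _ ⟨q, rfl, -⟩; exact q.2.1⟩ ⟨p, rfl, h.trans_le (measure_mono ?_)⟩
  change infAt H o ⊆ infExists H
  rw [infExists_eq]
  exact Set.subset_iUnion (infAt H) o

section Lattice

variable {d : ℕ}

/-- The percolation probability of `ℤ^d`. -/
noncomputable def theta (d : ℕ) (p : I) : ℝ := (bondMeasure (zd d) p).real (infAt (zd d) 0)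

lemma theta_eq (p : I) : theta d p = (bondMeasure (zd d) p).real
    (⋃ x ∈ ({0} : Finset (Fin d → ℤ)), infAt (zd d) x) := by
  simp [theta]

lemma theta_mono {p q : I} (hpq : p ≤ q) : theta d p ≤ theta d q := by
  rw [theta_eq, theta_eq]
  exact meet_infinite_mono hpq _ (box d) box_mono exists_mem_box

/-- If the origin percolates, large boxes are joined to the outside of every finite set with
probability close to one. -/
theorem box_escape_of_theta {p : I} (hθ : 0 < theta d p) {ε : ℝ} (hε : 0 < ε) :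
    ∃ m₀, ∀ m, m₀ ≤ m → ∀ Λ : Finset (Fin d → ℤ),
      1 - ε < pr (p : ℝ) (edgesAt (zd d) Λ) (Esc (box d m) Λ) := by
  have hpos : 0 < bondMeasure (zd d) p (infAt (zd d) 0) := (ENNReal.toReal_pos_iff.1 hθ).1
  obtain ⟨m₀, hm₀⟩ := eventually_atTop.1 ((tendsto_meet_infinite p hpos (box d) box_mono
    exists_mem_box).eventually (eventually_gt_nhds (show 1 - ε < 1 by linarith)))
  exact ⟨m₀, fun m hm Λ => (hm₀ m hm).trans_le (meet_infinite_le_escape p _ Λ)⟩

/-- An infinite cluster is possible exactly when the origin percolates. -/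
theorem theta_pos_iff (p : I) : 0 < theta d p ↔ 0 < bondMeasure (zd d) p (infExists (zd d)) := by
  haveI : IsProbabilityMeasure (bondMeasure (zd d) p) := by unfold bondMeasure; infer_instance
  constructor
  · intro h
    refine (ENNReal.toReal_pos_iff.1 h).1.trans_le (measure_mono fun ω hω => ?_)
    rw [infExists_eq]
    exact Set.mem_iUnion.2 ⟨0, hω⟩
  · intro h
    have := infAt_pos_of_infExists (H := zd d) p (0 : Fin d → ℤ)
      (fun x => ⟨shift x, by simp⟩) h
    exact ENNReal.toReal_pos this.ne' (measure_ne_top _ _)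

/-- The percolation probability vanishes at the threshold as soon as percolation is an open
condition in the parameter. -/
theorem theta_eq_zero_of_open {p : I} (hp : (p : ℝ) = pc (zd d)) (hp0 : 0 < (p : ℝ))
    (hopen : 0 < theta d p → ∀ᶠ t in 𝓝 (p : ℝ), ∀ ht : t ∈ Set.Icc (0 : ℝ) 1,
      0 < theta d ⟨t, ht⟩) : theta d p = 0 := by
  by_contra hne
  have hpos : 0 < theta d p := lt_of_le_of_ne measureReal_nonneg (Ne.symm hne)
  obtain ⟨δ, hδ, hball⟩ := Metric.eventually_nhds_iff.1 (hopen hpos)
  set t := max 0 ((p : ℝ) - δ / 2) with ht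
  have ht1 : t < p := max_lt hp0 (by linarith)
  have htI : t ∈ Set.Icc (0 : ℝ) 1 := ⟨le_max_left _ _, ht1.le.trans p.2.2⟩
  have := hball (y := t) (by
    rw [Real.dist_eq, abs_sub_comm, abs_of_pos (by linarith)]
    linarith [le_max_right 0 ((p : ℝ) - δ / 2)]) htI
  have hle := pc_le_of_infAt ⟨t, htI⟩ (0 : Fin d → ℤ) (ENNReal.toReal_pos_iff.1 this).1
  change pc (zd d) ≤ t at hle
  linarith

end Lattice

end Vale.Agent.P151
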