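import Vale.Agent.P151.Base.ZeroOne
import Vale.Agent.P151.Base.Bridge
import Vale.Agent.P151.FiniteBasic

/-!
What the threshold means on an arbitrary connected locally finite graph: escapes from a growing
family of finite sets, percolation from finite lower bounds, and absence of percolation at the
threshold when percolation persists at nearby parameters.
-/

open MeasureTheory ProbabilityTheory Finset Filter
open scoped unitInterval ENNReal Topology

namespace Vale.Agent.P151

open Vale.Agent.P165 (cl edgesAt trace pc infAt openGraph bondMeasure bond_real_trace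
  cl_le_cluster countable_of_connected)

variable {W : Type*} {H : SimpleGraph W}

/-- If an infinite cluster is possible, some vertex percolates. -/
lemma exists_infAt_pos [Countable W] (p : I) (h : 0 < bondMeasure H p (infExists H)) :
    ∃ o, 0 < bondMeasure H p (infAt H o) := by
  by_contra hc
  push Not at hc
  refine h.ne' ?_
  rw [infExists_eq]
  exact measure_iUnion_null fun x => nonpos_iff_eq_zero.1 (hc x)

/-- A percolating vertex makes an infinite cluster possible. -/
lemma infExists_pos_of_infAt (p : I) {o : W} (h : 0 < bondMeasure H p (infAt H o)) :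
    0 < bondMeasure H p (infExists H) :=
  h.trans_le (measure_mono (by rw [infExists_eq]; exact Set.subset_iUnion (infAt H) o))

variable [DecidableEq W] [H.LocallyFinite] [Countable W]

/-- Large finite sets leave every finite set with probability close to one. -/
theorem escape_of_infAt (p : I) {o : W} (ho : 0 < bondMeasure H p (infAt H o)) (B : ℕ → Finset W)
    (hB : Monotone B) (hcov : ∀ x, ∃ n, x ∈ B n) {ε : ℝ} (hε : 0 < ε) :
    ∃ m₀, ∀ m, m₀ ≤ m → ∀ Λ : Finset W,
      1 - ε < P165.pr (p : ℝ) (edgesAt H Λ) (Esc (B m) Λ) := by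
  obtain ⟨m₀, hm₀⟩ := eventually_atTop.1 ((tendsto_meet_infinite p ho B hB hcov).eventually
    (eventually_gt_nhds (show 1 - ε < 1 by linarith)))
  exact ⟨m₀, fun m hm Λ => (hm₀ m hm).trans_le (meet_infinite_le_escape p _ Λ)⟩

/-- A finite set which leaves every set of a growing family with probability at least `c`, inside
finite edge sets, contains a percolating vertex. -/
theorem infAt_pos_of_lower (p : I) (X : Finset W) (B : ℕ → Finset W) (hB : Monotone B)
    (hcov : ∀ x, ∃ n, x ∈ B n) {c : ℝ} (hc : 0 < c)
    (h : ∀ N : ℕ, ∃ U : Finset (Sym2 W), ↑U ⊆ H.edgeSet ∧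
      c ≤ Fin.pr (fun _ => (p : ℝ)) U fun w => ∃ y, y ∉ B N ∧ y ∈ cl (↑X : Set W) w) :
    ∃ x ∈ X, 0 < bondMeasure H p (infAt H x) := by
  have : IsProbabilityMeasure (bondMeasure H p) := by unfold bondMeasure; infer_instance
  have key : ∀ N, c ≤ P165.pr (p : ℝ) (edgesAt H (B N)) (Esc X (B N)) := by
    intro N
    obtain ⟨U, hU, hcU⟩ := h N
    rw [Fin.pr_eq_uniform, ← bond_real_trace p hU] at hcU
    rw [← escape_real]
    refine hcU.trans (measureReal_mono ?_)
    rintro ω ⟨y, hy, x, hx, hr⟩
    exact ⟨x, hx, y, hy, cl_le_cluster x hU ω ⟨x, rfl, hr⟩⟩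
  have hlim := hc.trans_le (ge_of_tendsto' (tendsto_escape p X B hB hcov) key)
  by_contra hno
  push Not at hno
  have h0 : bondMeasure H p (⋃ x ∈ X, infAt H x) = 0 :=
    (measure_biUnion_null_iff X.countable_toSet).2 fun x hx => nonpos_iff_eq_zero.1 (hno x hx)
  simp [measureReal_def, h0] at hlim

/-- At parameter zero there is no infinite cluster. -/
theorem infExists_null_zero (p : I) (hp : (p : ℝ) = 0) : bondMeasure H p (infExists H) = 0 := by
  have : IsProbabilityMeasure (bondMeasure H p) := by unfold bondMeasure; infer_instance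
  rw [infExists_eq]
  refine measure_iUnion_null fun x => ?_
  have hle := meet_infinite_le_escape (H := H) p ({x} : Finset W) {x}
  have h0 : P165.pr (p : ℝ) (edgesAt H {x}) (Esc ({x} : Finset W) {x}) = 0 := by
    classical
    rw [hp, P165.pr]
    refine Finset.sum_eq_zero fun S hS => ?_
    rw [mem_filter] at hS
    rcases eq_or_ne S ∅ with rfl | hne
    · refine absurd (fun y hy => ?_) hS.2
      obtain ⟨z, hz, hr⟩ := hy
      simp only [coe_singleton, Set.mem_singleton_iff] at hz
      subst hz
      simp only [coe_empty, SimpleGraph.fromEdgeSet_empty] at hr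
      simpa using (SimpleGraph.reachable_bot.1 hr).symm
    · simp [P165.wt, zero_pow (card_ne_zero.2 (nonempty_iff_ne_empty.2 hne))]
  rw [h0] at hle
  have h := le_antisymm hle measureReal_nonneg
  simpa [measureReal_def, ENNReal.toReal_eq_zero_iff, measure_ne_top] using h

/-- If percolation at `p` persists at all nearby parameters then there is none at the
threshold. -/
theorem infExists_pc_null_of_open (p : I) (hp : (p : ℝ) = pc H)
    (hopen : ∀ o, 0 < (p : ℝ) → 0 < bondMeasure H p (infAt H o) →
      ∀ᶠ t in 𝓝 (p : ℝ), ∀ ht : t ∈ Set.Icc (0 : ℝ) 1,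
        ∃ y, 0 < bondMeasure H ⟨t, ht⟩ (infAt H y)) :
    bondMeasure H p (infExists H) = 0 := by
  rcases eq_or_lt_of_le p.2.1 with h0 | h0
  · exact infExists_null_zero p h0.symm
  by_contra hne
  obtain ⟨o, ho⟩ := exists_infAt_pos p (pos_iff_ne_zero.2 hne)
  obtain ⟨δ, hδ, hball⟩ := Metric.eventually_nhds_iff.1 (hopen o h0 ho)
  set t := max 0 ((p : ℝ) - δ / 2)
  have ht1 : t < p := max_lt h0 (by linarith)
  have htI : t ∈ Set.Icc (0 : ℝ) 1 := ⟨le_max_left _ _, ht1.le.trans p.2.2⟩
  obtain ⟨y, hy⟩ := hball (y := t) (by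
    rw [Real.dist_eq, abs_sub_comm, abs_of_pos (by linarith)]
    linarith [le_max_right 0 ((p : ℝ) - δ / 2)]) htI
  have hle : pc H ≤ t := pc_le_of_infAt ⟨t, htI⟩ y hy
  linarith

end Vale.Agent.P151
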