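import Vale.Agent.P165.BKInf

/-!
The zero-one law for events that do not depend on finitely many edges, and its consequence: if
some vertex percolates then an infinite cluster exists almost surely.
-/

open MeasureTheory ProbabilityTheory Finset
open scoped unitInterval ENNReal

namespace Vale.Agent.P151

open Vale.Agent.P165

variable {W : Type*} {H : SimpleGraph W}

/-- An event that is unchanged by changing finitely many edges. -/
def Insensitive (A : Set (Set (Sym2 W))) : Prop :=
  ∀ (U : Finset (Sym2 W)) (ω ω' : Set (Sym2 W)),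
    (∀ e, e ∉ U → (e ∈ ω ↔ e ∈ ω')) → (ω ∈ A → ω' ∈ A)

/-- All edges of `U` are open. -/
def openOn (U : Finset (Sym2 W)) : Set (Set (Sym2 W)) := {ω | (U : Set (Sym2 W)) ⊆ ω}

lemma measurableSet_openOn [DecidableEq W] (U : Finset (Sym2 W)) : MeasurableSet (openOn U) := by
  have : openOn U = ⋂ e ∈ U, {ω : Set (Sym2 W) | e ∈ ω} := by
    ext ω; simp [openOn, Set.subset_def]
  rw [this]
  exact Finset.measurableSet_biInter _ fun e _ => P165.measurableSet_mem e

lemma openOn_inter [DecidableEq W] (U V : Finset (Sym2 W)) :
    openOn U ∩ openOn V = openOn (U ∪ V) := by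
  ext ω; simp [openOn]

lemma isPiSystem_openOn [DecidableEq W] :
    IsPiSystem (Set.range (openOn : Finset (Sym2 W) → Set (Set (Sym2 W)))) := by
  rintro _ ⟨U, rfl⟩ _ ⟨V, rfl⟩ _
  exact ⟨U ∪ V, (openOn_inter U V).symm⟩

lemma generateFrom_openOn [DecidableEq W] :
    (inferInstance : MeasurableSpace (Set (Sym2 W)))
      = MeasurableSpace.generateFrom (Set.range openOn) := by
  refine le_antisymm ?_ (MeasurableSpace.generateFrom_le fun s ⟨U, hU⟩ =>
    hU ▸ measurableSet_openOn U)
  have h : @Measurable _ _ (MeasurableSpace.generateFrom (Set.range openOn)) inferInstance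
      (id : Set (Sym2 W) → Set (Sym2 W)) := by
    refine (@measurable_set_iff _ _ (MeasurableSpace.generateFrom (Set.range openOn)) _).2
      fun e => ?_
    refine (@measurableSet_setOfPred _ (MeasurableSpace.generateFrom (Set.range openOn)) _).1
      (MeasurableSpace.measurableSet_generateFrom ⟨{e}, ?_⟩)
    ext ω; simp [openOn]
  intro s hs
  exact h hs

variable [DecidableEq W] [H.LocallyFinite] [Countable W]

lemma bond_openOn_union (p : I) {U V : Finset (Sym2 W)} (hd : Disjoint U V) :
    bondMeasure H p (openOn (U ∪ V)) = bondMeasure H p (openOn U) * bondMeasure H p (openOn V) := by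
  classical
  haveI : IsProbabilityMeasure (bondMeasure H p) := by unfold bondMeasure; infer_instance
  have hzero : ∀ U : Finset (Sym2 W), ¬ (↑U : Set (Sym2 W)) ⊆ H.edgeSet →
      bondMeasure H p (openOn U) = 0 := by
    intro U hU
    obtain ⟨e, he, heE⟩ := Set.not_subset.1 hU
    refine measure_mono_null (fun ω hω => ?_) (ae_iff.1 (setBernoulli_ae_subset (u := H.edgeSet) (p := p)))
    exact fun h => heE (h (hω he))
  have hreal : ∀ U : Finset (Sym2 W), ↑U ⊆ H.edgeSet →
      bondMeasure H p (openOn U) = ENNReal.ofReal ((p : ℝ) ^ U.card) := by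
    intro U hU
    rw [← ofReal_measureReal, ← pr_all_open (p : ℝ) (subset_refl U),
      ← bond_real_trace (H := H) p hU]
    congr 2
    ext ω
    simp only [openOn, Set.subset_def, Set.mem_ofPred_eq, Finset.subset_iff, mem_trace,
      Finset.mem_coe]
    exact ⟨fun h e he => ⟨he, h e he⟩, fun h e he => (h he).2⟩
  by_cases hUV : (↑U : Set (Sym2 W)) ⊆ H.edgeSet ∧ (↑V : Set (Sym2 W)) ⊆ H.edgeSet
  · rw [hreal _ hUV.1, hreal _ hUV.2, hreal _ (by simpa using hUV), card_union_of_disjoint hd,
      pow_add, ENNReal.ofReal_mul (pow_nonneg p.2.1 _)]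
  · rw [hzero (U ∪ V) (by simpa using hUV)]
    rcases not_and_or.1 hUV with h | h <;> simp [hzero _ h]

/-- Events that do not depend on finitely many edges have probability zero or one. -/
theorem zero_one (p : I) {A : Set (Set (Sym2 W))} (hA : MeasurableSet A) (hi : Insensitive A) :
    bondMeasure H p A = 0 ∨ bondMeasure H p A = 1 := by
  classical
  set μ := bondMeasure H p
  haveI : IsProbabilityMeasure μ := by unfold μ bondMeasure; infer_instance
  have hstep : ∀ U, μ (A ∩ openOn U) = μ A * μ (openOn U) := by
    intro U
    set f : Set (Sym2 W) → Set (Sym2 W) := fun ω => ω \ ↑U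
    have hf : Measurable f := measurable_set_iff.2 fun e => by
      by_cases he : e ∈ U
      · simp [f, he]
      · simpa [f, he] using measurable_set_mem e
    have hpre : f ⁻¹' A = A := by
      ext ω
      refine ⟨hi U _ _ fun e he => ?_, hi U _ _ fun e he => ?_⟩ <;> simp [f, he]
    have key : (μ.restrict (openOn U)).map f = μ (openOn U) • μ.map f := by
      refine ext_of_generate_finite _ generateFrom_openOn isPiSystem_openOn ?_ ?_
      · rintro _ ⟨V, rfl⟩
        rw [Measure.map_apply hf (measurableSet_openOn V), Measure.smul_apply,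
          Measure.map_apply hf (measurableSet_openOn V),
          Measure.restrict_apply (hf (measurableSet_openOn V)), smul_eq_mul]
        by_cases hd : Disjoint U V
        · have e : f ⁻¹' openOn V = openOn V := by
            ext ω
            simp only [f, openOn, Set.mem_preimage, Set.mem_ofPred_eq, Set.subset_sdiff,
              Finset.disjoint_coe]
            exact ⟨And.left, fun h => ⟨h, hd.symm⟩⟩
          rw [e, openOn_inter, bond_openOn_union p hd.symm, mul_comm]
        · have e : f ⁻¹' openOn V = ∅ := by
            ext ω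
            simp only [f, openOn, Set.mem_preimage, Set.mem_ofPred_eq, Set.subset_sdiff,
              Finset.disjoint_coe, Set.mem_empty_iff_false, iff_false]
            exact fun h => hd h.2.symm
          simp [e]
      · simp [Measure.map_apply hf]
    have := congrArg (fun m => m A) key
    simp only [Measure.map_apply hf hA, Measure.smul_apply, hpre, Measure.restrict_apply hA,
      smul_eq_mul] at this
    rw [this, mul_comm]
  have key : μ.restrict A = μ A • μ := by
    refine ext_of_generate_finite _ generateFrom_openOn isPiSystem_openOn ?_ ?_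
    · rintro _ ⟨U, rfl⟩
      rw [Measure.restrict_apply (measurableSet_openOn U), Set.inter_comm, hstep U,
        Measure.smul_apply, smul_eq_mul]
    · simp
  have h2 := congrArg (fun m => m A) key
  simp only [Measure.restrict_apply_self, Measure.smul_apply, smul_eq_mul] at h2
  by_cases h0 : μ A = 0
  · exact Or.inl h0
  · right
    exact ((ENNReal.mul_eq_left h0 (measure_ne_top _ _)).1 h2.symm)

/-- Some vertex has an infinite cluster. -/
def infExists (H : SimpleGraph W) : Set (Set (Sym2 W)) :=
  {ω | ∃ C : (openGraph H ω).ConnectedComponent, C.supp.Infinite}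

omit [DecidableEq W] [H.LocallyFinite] [Countable W] in
lemma infExists_eq : infExists H = ⋃ x, infAt H x := by
  ext ω
  simp only [infExists, Set.mem_ofPred_eq, Set.mem_iUnion, infAt]
  constructor
  · rintro ⟨C, hC⟩
    induction C using SimpleGraph.ConnectedComponent.ind with
    | h x => exact ⟨x, hC.mono fun y hy => (SimpleGraph.ConnectedComponent.exact hy).symm⟩
  · rintro ⟨x, hx⟩
    exact ⟨(openGraph H ω).connectedComponentMk x,
      hx.mono fun y hy => SimpleGraph.ConnectedComponent.sound hy.symm⟩

lemma measurableSet_infExists : MeasurableSet (infExists H) := by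
  rw [infExists_eq]; exact .iUnion fun x => measurableSet_infAt x

omit [H.LocallyFinite] [Countable W] in
lemma infExists_insensitive : Insensitive (infExists H) := by
  intro U ω ω' hU hω
  rw [infExists_eq] at hω ⊢
  obtain ⟨x, hx⟩ := Set.mem_iUnion.1 hω
  set P : Finset W := insert x (U.biUnion fun e => e.toFinset)
  by_contra hno
  simp only [Set.mem_iUnion, infAt, Set.mem_ofPred_eq, not_exists, Set.not_infinite] at hno
  refine (hx : Set.Infinite _) ((P.finite_toSet.biUnion fun a _ => hno a).subset fun y hy => ?_)
  simp only [Set.mem_iUnion, Finset.mem_coe]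
  have : ∀ {u v : W}, (openGraph H ω).Walk u v →
      (∃ a, a ∈ P ∧ (openGraph H ω').Reachable a u) →
      ∃ a, a ∈ P ∧ (openGraph H ω').Reachable a v := by
    intro u v q
    induction q with
    | nil => exact id
    | @cons u w v huw q ih =>
      rintro ⟨a, ha, hau⟩
      refine ih ?_
      by_cases he : s(u, w) ∈ U
      · exact ⟨w, mem_insert_of_mem (mem_biUnion.2 ⟨_, he, by simp⟩), .refl _⟩
      · refine ⟨a, ha, hau.trans (SimpleGraph.Adj.reachable ?_)⟩
        simp only [openGraph, SimpleGraph.inf_adj, SimpleGraph.fromEdgeSet_adj] at huw ⊢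
        exact ⟨huw.1, (hU _ he).1 huw.2.1, huw.2.2⟩
  obtain ⟨q⟩ := (hy : (openGraph H ω).Reachable x y)
  obtain ⟨a, ha, hay⟩ := this q ⟨x, mem_insert_self _ _, .refl _⟩
  exact ⟨a, ha, hay⟩

/-- If one vertex percolates with positive probability, an infinite cluster exists almost
surely. -/
theorem infExists_eq_one (p : I) {o : W} (ho : 0 < bondMeasure H p (infAt H o)) :
    bondMeasure H p (infExists H) = 1 := by
  refine (zero_one p measurableSet_infExists infExists_insensitive).resolve_left fun h => ?_
  have hsub : infAt H o ⊆ infExists H := by rw [infExists_eq]; exact Set.subset_iUnion _ o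
  exact ho.ne' (measure_mono_null hsub h)

/-- Large finite sets meet an infinite cluster with probability tending to one. -/
theorem tendsto_meet_infinite (p : I) {o : W} (ho : 0 < bondMeasure H p (infAt H o))
    (B : ℕ → Finset W) (hB : Monotone B) (hcov : ∀ x, ∃ n, x ∈ B n) :
    Filter.Tendsto (fun n => (bondMeasure H p).real (⋃ x ∈ B n, infAt H x)) Filter.atTop
      (nhds 1) := by
  haveI : IsProbabilityMeasure (bondMeasure H p) := by unfold bondMeasure; infer_instance
  have hmono : Monotone fun n => ⋃ x ∈ B n, infAt H x := fun m n h =>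
    Set.biUnion_subset_biUnion_left (fun x hx => hB h hx)
  have hu : (⋃ n, ⋃ x ∈ B n, infAt H x) = infExists H := by
    rw [infExists_eq]
    ext ω
    simp only [Set.mem_iUnion]
    exact ⟨fun ⟨_, x, _, h⟩ => ⟨x, h⟩, fun ⟨x, h⟩ => (hcov x).elim fun n hn => ⟨n, x, hn, h⟩⟩
  have := (ENNReal.tendsto_toReal ENNReal.one_ne_top).comp
    (infExists_eq_one p ho ▸ hu ▸ tendsto_measure_iUnion_atTop hmono (μ := bondMeasure H p))
  simpa [Function.comp_def, measureReal_def] using this

/-- A vertex percolates as soon as an infinite cluster is possible, on a graph with one orbit. -/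
theorem infAt_pos_of_infExists (p : I) (o : W) (htr : ∀ x, ∃ φ : H ≃g H, φ o = x)
    (h : 0 < bondMeasure H p (infExists H)) : 0 < bondMeasure H p (infAt H o) := by
  by_contra h0
  rw [not_lt, nonpos_iff_eq_zero] at h0
  refine h.ne' ?_
  rw [infExists_eq]
  refine measure_iUnion_null fun x => ?_
  obtain ⟨φ, rfl⟩ := htr x
  rw [infAt_iso, h0]

end Vale.Agent.P151
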